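import Crest.Agent.X262.Mv99.Ten
import Crest.Agent.X262.Mv99.Mon
import Crest.Agent.X262.Alg44.Defs

-- ▼ part X262/Fam99/Rgd
section

/-!
# Row 262, G4 / RIGID (helper99): line bundles on a ramified base change lift to first order

* `lev`, `levStmt` : base change of moves along `X ↦ X ^ e`;
* `lg e f`         : the coefficient of `X ^ e` of the logarithmic derivative;
* `aff_van`        : `H¹(U, O) = 0` on an affine chart;
* `rigidStmt`.
-/

set_option autoImplicit false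

open PowerSeries

noncomputable section

namespace Crest.Agent.X262.Fam99

open Crest.Agent.X277 Crest.Agent.X277.Lef Crest.Agent.X277.AN.G1 Crest.Agent.X277.BD
open Crest.Agent.X277.BD.Br (On oP kP At)
open Crest.Agent.X262.Mv99
open Crest.Agent.X262.Alg44 (IsLev LevStmt RigidStmt)
open Crest.Agent.X262.Top (Hyp)

section Lev

variable {k L R : Type} [CommRing k] [CommRing L] [Algebra k L] [CommRing R]

theorem hom_ext' {ψ ψ' : L⟦X⟧ →+* R⟦X⟧} (h : ψ X = ψ' X) (h' : X ∣ ψ X)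
    (hC : ∀ a, ψ (C a) = ψ' (C a)) (f : L⟦X⟧) : ψ f = ψ' f := by
  obtain ⟨c, hc⟩ := h'
  refine eq_of_dvd fun n => ?_
  induction n generalizing f with
  | zero => simp
  | succ n ih =>
    obtain ⟨w, hw⟩ := ih (sh f)
    refine ⟨c * w, ?_⟩
    conv_lhs => rw [eq_C_add f]
    simp only [map_add, map_mul, ← h, hc, hC]
    linear_combination X * c * hw

/-- base change of a move -/
def lev (e : ℕ) (he : e ≠ 0) (m : Mv k L) : Mv k L :=
  Mv.ofHom (((expand e he : L⟦X⟧ →ₐ[L] L⟦X⟧).restrictScalars k).comp m.hom)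
    (fun a => by simp [constantCoeff_expand, m.ψ0]) (expand e he m.u)
    (by rw [constantCoeff_expand, m.u0])

theorem lev_C (e : ℕ) (he : e ≠ 0) (m : Mv k L) (a : L) :
    (lev e he m).ψ (C a) = expand e he (m.ψ (C a)) := Mv.ofHom_C _ _ _ _ a


theorem isLev_lev (e : ℕ) (he : e ≠ 0) (m : Mv k L) : IsLev e he m (lev e he m) := by
  intro f
  have h1 : (lev e he m).ψ (expand e he X) = X ^ e := by rw [expand_X, map_pow, Mv.ψX]
  refine hom_ext' (ψ := (lev e he m).ψ.comp (expand e he : L⟦X⟧ →ₐ[L] L⟦X⟧).toRingHom)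
    (ψ' := (expand e he : L⟦X⟧ →ₐ[L] L⟦X⟧).toRingHom.comp m.ψ) ?_ ?_ (fun a => ?_) f
  · change (lev e he m).ψ (expand e he X) = expand e he (m.ψ X)
    rw [h1, m.ψX, expand_X]
  · change X ∣ (lev e he m).ψ (expand e he X)
    rw [h1]
    exact dvd_pow_self X he
  · change (lev e he m).ψ (expand e he (C a)) = expand e he (m.ψ (C a))
    rw [expand_C, lev_C]


variable {e : ℕ} {he : e ≠ 0} {m m' d d' : Mv k L}

theorem expand_mem {A : AddSubgroup L} {f : L⟦X⟧} (hf : f ∈ ser A) : expand e he f ∈ ser A := by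
  intro i
  rw [coeff_expand]
  split_ifs
  exacts [hf _, zero_mem _]

theorem lev_ψC (h : IsLev e he m m') (a : L) : m'.ψ (C a) = expand e he (m.ψ (C a)) := by
  rw [← h, expand_C]

/-- the deformed rings agree after base change -/
theorem lev_ring (h : IsLev e he m m') (h' : IsLev e he d d') {A : Subring L}
    (hA : (serR A).map m.ψ = (serR A).map d.ψ) {f : L⟦X⟧} (hf : f ∈ serR A) :
    ∃ g ∈ serR A, m'.ψ f = d'.ψ g := by
  refine ⟨(d'.inv.comp m').ψ f, (d'.inv.comp m').xl.mem (M := A.toAddSubgroup)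
    (M' := A.toAddSubgroup) (fun a ha => ?_) hf, (d'.ψ_inv _).symm⟩
  obtain ⟨g, hg, e1⟩ : m.ψ (C a) ∈ (serR A).map d.ψ := hA ▸ ⟨_, C_mem_serR ha, rfl⟩
  change d'.inv.ψ (m'.ψ (C a)) ∈ _
  rw [lev_ψC h, ← e1, ← h', d'.inv_ψ]
  exact expand_mem hg

theorem lev_first (h : IsLev e he m m') {D : Derivation k L L} {r : L}
    (hd : Mv.Df 1 m Mv.one D r) (f : L⟦X⟧) :
    X ^ (e + 1) ∣ m'.ψ f - f - X ^ e * C (D (constantCoeff f)) := by
  have h1 : ∀ a, X ^ (e + 1) ∣ m'.ψ (C a) - C a - X ^ e * C (D a) := fun a => by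
    have := map_dvd (expand e he) (hd.1 a)
    simp only [map_sub, map_mul, map_pow, expand_X, expand_C, Mv.one_ψ, pow_one,
      ← lev_ψC h, ← pow_mul] at this
    exact (pow_dvd_pow _ (by omega)).trans this
  have h2 : Mv.Df e { m' with u := 1, u0 := map_one _ } Mv.one D 0 := ⟨h1, by simp⟩
  exact h2.ψ_dvd f

end Lev

section Lg

variable {F : Type} [Field F]

/-- a coefficient of the logarithmic derivative -/
def lg (e : ℕ) (f : F⟦X⟧) : F := coeff e (X * d⁄dX F f * f⁻¹)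

theorem lg_mul (e : ℕ) {f g : F⟦X⟧} (hf : constantCoeff f ≠ 0) (hg : constantCoeff g ≠ 0) :
    lg e (f * g) = lg e f + lg e g := by
  rw [lg, lg, lg, ← map_add, Derivation.leibniz, PowerSeries.mul_inv_rev]
  congr 1
  have h1 := PowerSeries.mul_inv_cancel f hf
  have h2 := PowerSeries.mul_inv_cancel g hg
  simp only [smul_eq_mul]
  linear_combination X * d⁄dX F g * g⁻¹ * h1 + X * d⁄dX F f * f⁻¹ * h2

theorem lg_mem (e : ℕ) {A : Subring F} {f : F⟦X⟧} (hf : f ∈ serR A) (h0 : constantCoeff f ≠ 0)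
    (hi : (constantCoeff f)⁻¹ ∈ A) : lg e f ∈ A := by
  obtain ⟨g, hg, e1⟩ := exists_inv_serR hf hi (mul_inv_cancel₀ h0)
  have h1 : f⁻¹ = g := (PowerSeries.inv_eq_iff_mul_eq_one h0).2 (by rw [mul_comm, e1])
  have h2 : d⁄dX F f ∈ serR A := fun i => by
    rw [coeff_derivative]
    exact A.mul_mem (hf _) (add_mem (natCast_mem A i) A.one_mem)
  rw [lg, h1]
  exact mul_mem (mul_mem (X_mem_serR A) h2) hg e

theorem lg_eq {e : ℕ} (he : e ≠ 0) {f g : F⟦X⟧} (hg : constantCoeff g ≠ 0) {b : F}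
    (h : X ^ (e + 1) ∣ f - g - X ^ e * C b) : lg e f = lg e g + e * (b / constantCoeff g) := by
  obtain ⟨w, hw⟩ := h
  obtain ⟨n, rfl⟩ : ∃ n, e = n + 1 := Nat.exists_eq_succ_of_ne_zero he
  have h1 := PowerSeries.mul_inv_cancel g hg
  set q : F⟦X⟧ := (C b + X * w) * g⁻¹ with hq
  have h2 : f = g * (1 + X ^ (n + 1) * q) := by
    rw [hq]
    linear_combination hw - X ^ (n + 1) * (C b + X * w) * h1
  have h3 : constantCoeff (1 + X ^ (n + 1) * q) = 1 := by simp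
  have h4 : constantCoeff q = b / constantCoeff g := by
    simp [hq, constantCoeff_inv, div_eq_mul_inv]
  rw [h2, lg_mul _ hg (h3 ▸ one_ne_zero)]
  congr 1
  have h5 : X * d⁄dX F (1 + X ^ (n + 1) * q) * (1 + X ^ (n + 1) * q)⁻¹ = X ^ (n + 1) *
      ((((n + 1 : ℕ) : F⟦X⟧) * q + X * d⁄dX F q) * (1 + X ^ (n + 1) * q)⁻¹) := by
    simp only [map_add, Derivation.map_one_eq_zero, Derivation.leibniz, Derivation.leibniz_pow,
      derivative_X, smul_eq_mul, nsmul_eq_mul, Nat.add_sub_cancel]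
    ring
  have h6 := coeff_X_pow_mul ((((n + 1 : ℕ) : F⟦X⟧) * q + X * d⁄dX F q) * (1 + X ^ (n + 1) * q)⁻¹) (n + 1) 0
  rw [zero_add] at h6
  rw [lg, h5, h6, coeff_zero_eq_constantCoeff_apply]
  simp [constantCoeff_inv, h4]

end Lg

variable {F : Type} [Field F] [Algebra ℂ F]

/-- `H¹(U, O) = 0` for an affine chart `U` -/
theorem aff_van {P : PModel ℂ F} {i : Fin (P.N + 1)} {ι : Type*} (W : ι → Set (Pts P))
    (lam : ι → F) (hW : ∀ x ∈ pat P i, ∃ j, ∃ c ∈ P.A i, ev c x ≠ 0 ∧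
      ∀ y ∈ pat P i, ev c y ≠ 0 → y ∈ W j)
    (hl : ∀ j l, ∀ x ∈ pat P i, x ∈ W j → x ∈ W l → lam j - lam l ∈ (lp x).O) :
    ∃ ρ, ∀ j, ∀ x ∈ pat P i, x ∈ W j → ρ - lam j ∈ (lp x).O := by
  classical
  have hW' : ∀ x : pat P i, ∃ j, ∃ c ∈ P.A i, ev c x.1 ≠ 0 ∧
    ∀ y ∈ pat P i, ev c y ≠ 0 → y ∈ W j := fun x => hW x.1 x.2
  choose j c hc h0 h1 using hW'
  let N : Submodule ℂ F :=
    { carrier := {f | f ∈ P.A i ∧ ∃ t : Finset (pat P i), ∀ y ∈ pat P i, ev f y ≠ 0 →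
        ∃ x ∈ t, ev (c x) y ≠ 0}
      zero_mem' := ⟨zero_mem _, ∅, fun y _ h => (h (lp y).v_zero).elim⟩
      add_mem' := by
        rintro f g ⟨hf, t, ht⟩ ⟨hg, t', ht'⟩
        refine ⟨add_mem hf hg, t ∪ t', fun y hy h => ?_⟩
        by_cases h2 : ev f y = 0
        · obtain ⟨x, hx, h3⟩ := ht' y hy fun h3 => h (by
            rw [ev, (lp y).v_add (A_le hy hf) (A_le hy hg)]
            exact (congrArg₂ (· + ·) h2 h3).trans (add_zero 0))
          exact ⟨x, Finset.mem_union_right _ hx, h3⟩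
        · obtain ⟨x, hx, h3⟩ := ht y hy h2
          exact ⟨x, Finset.mem_union_left _ hx, h3⟩
      smul_mem' := by
        rintro a f ⟨hf, t, ht⟩
        refine ⟨Subalgebra.smul_mem _ hf a, t, fun y hy h => ht y hy fun h2 => h ?_⟩
        rw [Algebra.smul_def, ev, (lp y).v_mul (algebraMap_mem _ a) (A_le hy hf)]
        exact mul_eq_zero_of_right _ h2 }
  obtain ⟨-, t, ht⟩ : (1 : F) ∈ N := by
    refine mem_of_local N ?_ fun x hx => ⟨c ⟨x, hx⟩, hc _, h0 _, ?_⟩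
    · rintro a ha f ⟨hf, t, ht⟩
      refine ⟨mul_mem ha hf, t, fun y hy h => ht y hy fun h2 => h ?_⟩
      rw [ev, (lp y).v_mul (A_le hy ha) (A_le hy hf)]
      exact mul_eq_zero_of_right _ h2
    · rw [mul_one]
      exact ⟨hc _, {⟨x, hx⟩}, fun y _ h => ⟨_, Finset.mem_singleton_self _, h⟩⟩
  have h2 : ∀ x x' : pat P i, ∃ k : ℕ, (c x * c x') ^ k * (lam (j x) - lam (j x')) ∈ P.A i :=
    fun x x' => exists_pow_mul_mem (V := F) (P.A i).toSubring.toAddSubgroup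
      (fun a ha g hg => (P.A i).mul_mem ha hg) (mul_mem (hc x) (hc x')) fun y hy h => by
        rw [ev, (lp y).v_mul (A_le hy (hc x)) (A_le hy (hc x'))] at h
        obtain ⟨u, hu, a, ha, h3, h4⟩ := (mem_lp_iff hy).1 (hl _ _ y hy
          (h1 x y hy (left_ne_zero_of_mul h)) (h1 x' y hy (right_ne_zero_of_mul h)))
        exact ⟨a, ha, h3, by rw [smul_eq_mul, mul_comm, h4]; exact hu⟩
  choose k hk using h2
  let N' : Submodule ℂ F :=
    { carrier := {f | ∃ ρ, ∀ x ∈ t, ∀ y ∈ pat P i, ev (c x) y ≠ 0 → ρ - f * lam (j x) ∈ (lp y).O}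
      zero_mem' := ⟨0, fun x _ y _ _ => by simp⟩
      add_mem' := by
        rintro f g ⟨ρ, h⟩ ⟨ρ', h'⟩
        refine ⟨ρ + ρ', fun x hx y hy h3 => ?_⟩
        convert add_mem (h x hx y hy h3) (h' x hx y hy h3) using 1
        ring
      smul_mem' := by
        rintro a f ⟨ρ, h⟩
        refine ⟨a • ρ, fun x hx y hy h3 => ?_⟩
        rw [smul_mul_assoc, ← smul_sub]
        exact Subalgebra.smul_mem _ (h x hx y hy h3) a }
  obtain ⟨ρ, hρ⟩ : (1 : F) ∈ N' := by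
    refine mem_of_local N' ?_ fun x hx => ⟨c ⟨x, hx⟩ ^ t.sup (k ⟨x, hx⟩), pow_mem (hc _) _, ?_, ?_⟩
    · rintro a ha f ⟨ρ, h⟩
      refine ⟨a * ρ, fun x hx y hy h3 => ?_⟩
      rw [mul_assoc, ← mul_sub]
      exact mul_mem (A_le hy ha) (h x hx y hy h3)
    · rw [ev, (lp x).v_pow (A_le hx (hc _))]
      exact pow_ne_zero _ (h0 ⟨x, hx⟩)
    · refine ⟨c ⟨x, hx⟩ ^ t.sup (k ⟨x, hx⟩) * lam (j ⟨x, hx⟩), fun x' hx' y hy h3 => ?_⟩
      obtain ⟨d, hd⟩ := Nat.exists_eq_add_of_le (Finset.le_sup (f := k ⟨x, hx⟩) hx')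
      have h4 := mul_mem (mul_mem (A_le hy (hk ⟨x, hx⟩ x')) (pow_mem ((lp y).inv_mem h3)
        (k ⟨x, hx⟩ x'))) (pow_mem (A_le hy (hc ⟨x, hx⟩)) d)
      have h5 : c x' ≠ 0 := LP.ne_zero_of_ne h3
      rw [hd]
      convert h4 using 1
      rw [mul_pow, inv_pow]
      field_simp
      ring
  refine ⟨ρ, fun l y hy hl' => ?_⟩
  obtain ⟨x, hx, h3⟩ := ht y hy (by simp [ev, LP.v_one])
  have := add_mem (hρ x hx y hy h3) (hl _ _ y hy (h1 x y hy h3) hl')
  simpa using this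

/-- a finite family which is regular at a point is regular on a principal neighbourhood -/
theorem exists_nbhd {P : PModel ℂ F} {i : Fin (P.N + 1)} {x : Pts P} (hx : x ∈ pat P i) {ι : Type*}
    [Fintype ι] {f : ι → F} (hf : ∀ l, f l ∈ (lp x).O) : ∃ c ∈ P.A i, ev c x ≠ 0 ∧
      ∀ y ∈ pat P i, ev c y ≠ 0 → ∀ l, f l ∈ (lp y).O := by
  choose a ha c hc h0 h1 using fun l => (mem_lp_iff hx).1 (hf l)
  refine ⟨∏ l, c l, prod_mem fun l _ => hc l, ?_, fun y hy h l => ?_⟩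
  · rw [ev, LP.v_prod _ fun l _ => A_le hx (hc l)]
    exact Finset.prod_ne_zero_iff.2 fun l _ => h0 l
  · rw [ev, LP.v_prod _ fun l _ => A_le hy (hc l)] at h
    exact (mem_lp_iff hy).2 ⟨_, ha l, _, hc l,
      Finset.prod_ne_zero_iff.1 h l (Finset.mem_univ l), h1 l⟩

variable {Γ : MvPolynomial (Fin 4) ℂ} {S : Hyp 3 Γ F} {M : BD ℂ F}

/-- the first order terms of a deformation -/
theorem dfm_op (D : Dfm S M) {a b : Fin 3} {x : Pts S.P} (ha : x ∈ U S a) (hb : x ∈ U S b) :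
    Op (oR x) (nS M x) (D.η a - D.η b) (D.r a - D.r b) := by
  obtain ⟨d, hd, e1⟩ := (D.same ha hb).exists
  obtain ⟨D', r', h⟩ := (Mv.cg_one d Mv.one).exists_df
  have h1 := (D.df b).comp h
  rw [← e1, Mv.one_comp'] at h1
  have h2 := ((D.df a).trans h1.symm).trans (Mv.df_zero.2 (Mv.Cg.refl _ _))
  have h3 : D.η a - D.η b = D' := by
    ext f
    have := coeff_of_dvd_succ (h2.1 f)
    simp only [sub_self, map_zero, add_zero, Derivation.coe_add, Derivation.coe_neg, Pi.add_apply,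
      Pi.neg_apply] at this
    rw [Derivation.sub_apply]
    linear_combination -this
  have h4 : D.r a - D.r b = r' := by
    have := coeff_of_dvd_succ h2.2
    simp only [sub_self, map_zero, add_zero] at this
    linear_combination -this
  rw [h3, h4]
  exact h.op hd (Mv.pres_one _ _)

theorem rigidStmt : RigidStmt := by
  intro F _ _ Γ S _ M D e he m' hm n σ h0 hσ
  set s : Fin (n + 1) → F := fun j => constantCoeff (σ j) with hs
  let W : Fin (n + 1) → Set (Pts S.P) := fun j => {x | ∀ l, s l / s j ∈ (lp x).O}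
  let τ : Fin 3 → Fin (n + 1) → F⟦X⟧ := fun a j => (m' a).inv.ψ (σ j)
  have t0 : ∀ a j, constantCoeff (τ a j) = s j := fun a j => (m' a).inv.const _
  have h1 : ∀ a, ∀ x ∈ U S a, ∃ j, ∀ l, ∃ w ∈ serR (oR x), τ a l = τ a j * w := by
    intro a x hx
    obtain ⟨b, hb, j, hj⟩ := hσ x
    refine ⟨j, fun l => ?_⟩
    obtain ⟨w, hw, e1⟩ := hj l
    obtain ⟨g, hg, e2⟩ := lev_ring (hm b) (hm a) (D.ring b a x hb hx) hw
    exact ⟨g, hg, by simp only [τ]; rw [e1, e2, map_mul, Mv.inv_ψ]⟩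
  have h2 : ∀ {a j l} {w : F⟦X⟧}, τ a l = τ a j * w → constantCoeff w = s l / s j := by
    intro a j l w h
    rw [eq_div_iff (h0 j), ← t0 a l, h, map_mul, t0, mul_comm]
  have h3 : ∀ a, ∀ x ∈ U S a, ∃ j, x ∈ W j := fun a x hx => (h1 a x hx).imp fun j hj l => by
    obtain ⟨w, hw, e1⟩ := hj l
    exact h2 e1 ▸ const_mem (M := (oR x).toAddSubgroup) hw
  have h4 : ∀ a, ∀ x ∈ U S a, ∀ j l, x ∈ W j → x ∈ W l →
      lg e (τ a j) - lg e (τ a l) ∈ (lp x).O := by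
    intro a x hx
    obtain ⟨i, hi⟩ := h1 a x hx
    have : ∀ j, x ∈ W j → lg e (τ a j) - lg e (τ a i) ∈ (lp x).O := fun j hj => by
      obtain ⟨w, hw, e1⟩ := hi j
      have h5 : constantCoeff w ≠ 0 := h2 e1 ▸ div_ne_zero (h0 j) (h0 i)
      rw [e1, lg_mul e (t0 a i ▸ h0 i) h5, add_sub_cancel_left]
      exact lg_mem e hw h5 (by rw [h2 e1, inv_div]; exact hj i)
    intro j l hj hl
    simpa using sub_mem (this j hj) (this l hl)
  have h5 : ∀ a : Fin 3, ∃ ρ, ∀ j, ∀ x ∈ U S a, x ∈ W j → ρ - lg e (τ a j) ∈ (lp x).O := fun a =>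
    aff_van W (fun j => lg e (τ a j)) (fun x hx => by
      obtain ⟨j, hj⟩ := h3 a x hx
      exact ⟨j, exists_nbhd hx hj⟩) fun j l x hx => h4 a x hx j l
  choose ρ hρ using h5
  have h6 : ∀ a j, lg e (σ j) = lg e (τ a j) + e * (D.η a (s j) / s j) := fun a j => by
    have := lev_first (hm a) (D.df a) (τ a j)
    rw [(m' a).ψ_inv, t0] at this
    have h6 := lg_eq he (t0 a j ▸ h0 j) this
    rwa [t0] at h6
  have h7 : (e : F) ≠ 0 := by
    have := charZero_of_injective_algebraMap (algebraMap ℂ F).injective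
    exact Nat.cast_ne_zero.2 he
  refine ⟨fun a => ρ a / e, fun a b x ha hb => ⟨(dfm_op D ha hb).1, fun z hz => ?_⟩⟩
  obtain ⟨j, hj⟩ := h3 a x ha
  have hg : At (mxf ℂ s) x (s j) := Br.at_mxf (h0 j) hj
  rw [mem_nS_iff hg] at hz ⊢
  have h8 := (dfm_op D ha hb).1 _ hz
  have h9 : (e : F)⁻¹ ∈ oR x := by
    have : (e : F)⁻¹ = algebraMap ℂ F (e : ℂ)⁻¹ := by simp
    exact this ▸ algebraMap_mem (lp x).O _
  have h10 := mul_mem hz (mul_mem h9 (sub_mem (hρ a j x ha hj) (hρ b j x hb hj)))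
  have h11 := h0 j
  convert add_mem h8 h10 using 1
  have e1 : ∀ δ : Derivation ℂ F F, δ z = z / s j * δ (s j) + s j * δ (z / s j) := fun δ => by
    conv_lhs => rw [← div_mul_cancel₀ z h11, Derivation.leibniz]
    rfl
  have e2 := eq_sub_of_add_eq (h6 a j).symm
  have e3 := eq_sub_of_add_eq (h6 b j).symm
  rw [e1 (D.η a - D.η b), e2, e3, Derivation.sub_apply]
  change s j ≠ 0 at h11
  field_simp
  ring

end Crest.Agent.X262.Fam99
end
end

-- ▼ part X262/Fam6/Rem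

/-!
# Row 262, G4 / FAM (helper6), part 1: another embedding of a smooth model; adic generation

* `Same P Q`      : the two models have the same local rings;
* `exists_rem`    : the embedding by `a + oP P` for a free `a`;
* `mem_span_adic` : a saturated module of power series is generated by lifts of generators.
-/

set_option autoImplicit false

open PowerSeries

noncomputable section

namespace Crest.Agent.X262.Fam6

open Crest.Agent.X277 Crest.Agent.X277.Lef Crest.Agent.X277.AN.G1 Crest.Agent.X277.BD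
open Crest.Agent.X277.BD.Br
open Crest.Agent.X262.Mv99 (sh eq_C_add eq_of_dvd)

variable {F : Type} [Field F] [Algebra ℂ F] {P Q : PModel ℂ F}

/-- the same local rings -/
structure Same (P Q : PModel ℂ F) : Prop where
  dn : ∀ z : Pts Q, ∃ x : Pts P, lp x = lp z
  up : ∀ x : Pts P, ∃ z : Pts Q, lp z = lp x

theorem at_congr {x : Pts P} {z : Pts Q} (h : lp x = lp z) {a : BD ℂ F} {g : F} :
    At a x g ↔ At a z g := by
  simp only [At, Cns.Ov, h]

theorem Same.symm (h : Same P Q) : Same Q P := ⟨h.up, h.dn⟩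

theorem Same.on_le (h : Same P Q) : On P ≤ On Q := fun _ ha z =>
  (h.dn z).elim fun x hx => (ha x).imp fun _ => (at_congr hx).1

theorem Same.on_eq (h : Same P Q) : On Q = On P := le_antisymm h.symm.on_le h.on_le


theorem Same.kP_eq (h : Same P Q) {n : ℕ} (b : Module.Basis (Fin n) F Ω[F⁄ℂ]) :
    kP Q b = kP P b := le_antisymm (kP_le b (h.symm.on_le oP_mem)) (kP_le b (h.on_le oP_mem))

/-- the embedding by `a + oP P`, normalised -/
theorem exists_rem {a : BD ℂ F} (ha : a ∈ On P) (hf : Free a) : ∃ (Q : PModel ℂ F) (g : F),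
    g ≠ 0 ∧ Q.y 0 = 1 ∧ oP Q + pr ℂ g = a + oP P ∧ Same P Q := by
  obtain ⟨r, s, h0, h1, rfl⟩ := exists_gn ha hf
  let e := Cns.eI (Fin (P.N + 1) × Fin (r + 1))
  let g := P.y (e 0).1 * s (e 0).2
  have hg : g ≠ 0 := mul_ne_zero (P.y_ne _) (h0 _)
  let w : Fin (P.N + 1) × Fin (r + 1) → F := fun p => P.y p.1 * s p.2 / g
  have hw : ∀ p, w p ≠ 0 := fun p => div_ne_zero (mul_ne_zero (P.y_ne _) (h0 _)) hg
  have h2 : Cns.Gn P w := fun x => (Cns.gn_y.mul h1 x).imp fun p h => ⟨hw p, fun l => by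
    rw [div_div_div_cancel_right₀ hg]; exact h.2 l⟩
  have h3 : ∀ p, P.A p.1 ≤ Cns.chI ℂ w p := fun p => Algebra.adjoin_le <| by
    rintro _ ⟨j, rfl⟩
    have := Cns.div_mem_chI ℂ w p (j, p.2)
    rwa [div_div_div_cancel_right₀ hg, mul_div_mul_right _ _ (h0 _)] at this
  have h4 : ∀ p (L : LP F), L.Of (Cns.chI ℂ w p) → ∃ x : Pts P, lp x = L := fun p L hL => by
    obtain ⟨x, -, hx⟩ := exists_dom (i := p.1) L fun j => hL.le (h3 p (div_mem_chart P.y _ j))
    exact ⟨x, Cns.eq_of_dom_of hx hL (Cns.chI_le (h2.div_mem hx (hw p) fun l =>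
      hL.le (Cns.div_mem_chI ℂ w p l)))⟩
  let Q := Cns.ofFam w hw (fun p f => by
    obtain ⟨a, ha, c, hc, h⟩ := P.frac' p.1 f
    exact ⟨a, h3 p ha, c, h3 p hc, h⟩) fun p => Cns.smooth_of_lp _ fun L hL =>
      (h4 p L hL).elim fun x hx => hx ▸ Cns.lp_fs x
  refine ⟨Q, g, hg, div_self hg, ?_, fun z => ?_, fun x => ?_⟩
  · have h5 : ∀ p, w p * g ∈ (mxf ℂ s + oP P).Sec := fun p => by
      rw [div_mul_cancel₀ _ hg, mul_comm]
      exact mul_mem_Sec (mem_Sec_mxf s _) (y_mem_Sec _)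
    refine ext' fun V => le_antisymm ?_ ?_
    · obtain ⟨i, hi⟩ := exists_val_mxf (k := ℂ) ⟨0, Q.y_ne 0⟩ V
      rw [val_add, oP, ← hi, val_pr hg, ← map_mul]
      exact h5 _ V
    · obtain ⟨i, hi⟩ := exists_val_mxf (k := ℂ) ⟨0, P.y_ne 0⟩ V
      obtain ⟨j, hj⟩ := exists_val_mxf (k := ℂ) ⟨0, h0 0⟩ V
      have h6 := y_mem_Sec (P := Q) (e.symm (i, j)) V
      rw [Cns.ofFam_y_symm, map_div₀, div_le_iff₀ (RZ.pos hg), map_mul] at h6
      rwa [val_add, val_add, oP, ← hi, ← hj, val_pr hg, mul_comm]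
  · obtain ⟨i, hi⟩ := exists_pat z
    exact h4 _ _ (Cns.ofFam_A w hw _ _ i ▸ lp_of hi)
  · obtain ⟨p, -, hp⟩ := h2 x
    obtain ⟨z, hz, h5⟩ := exists_dom (P := Q) (i := e.symm p) (lp x) fun j => by
      rw [Cns.ofFam_y_symm]; exact hp _
    have h6 := (Cns.ofFam_A w hw _ _ _).ge.trans (A_le hz)
    rw [Equiv.apply_symm_apply] at h6
    exact ⟨z, Cns.eq_of_dom_of h5 (lp_of (mem_pat_of_mem fun j =>
      Cns.chI_le hp (h3 p (div_mem_chart P.y _ j)))) ((h3 p).trans h6)⟩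

theorem smul_eq (c : ℂ⟦X⟧) (f : F⟦X⟧) : c • f = map (algebraMap ℂ F) c * f := Algebra.smul_def c f

theorem const_smul (c : ℂ⟦X⟧) (f : F⟦X⟧) :
    constantCoeff (c • f) = constantCoeff c • constantCoeff f := by
  rw [smul_eq, map_mul, Mv99.const_map, Algebra.smul_def]

/-- **adic generation** -/
theorem mem_span_adic {W : Submodule ℂ⟦X⟧ F⟦X⟧} (sat : ∀ f, X * f ∈ W → f ∈ W) {ι : Type}
    [Fintype ι] {r : ι → F⟦X⟧} (hr : ∀ i, r i ∈ W)
    (h : ∀ f ∈ W, constantCoeff f ∈ Submodule.span ℂ (Set.range fun i => constantCoeff (r i)))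
    {f : F⟦X⟧} (hf : f ∈ W) : ∃ c : ι → ℂ⟦X⟧, f = ∑ i, c i • r i := by
  have h1 : ∀ f : W, ∃ (c : ι → ℂ) (g : W),
      (f : F⟦X⟧) = ∑ i, (C (c i) : ℂ⟦X⟧) • r i + X * (g : F⟦X⟧) := fun f => by
    obtain ⟨c, hc⟩ := (Submodule.mem_span_range_iff_exists_fun ℂ).1 (h f f.2)
    have h2 := eq_C_add (f - ∑ i, (C (c i) : ℂ⟦X⟧) • r i : F⟦X⟧)
    rw [map_sub, map_sum, ← hc] at h2
    simp only [const_smul, constantCoeff_C, sub_self, map_zero, zero_add] at h2
    exact ⟨c, ⟨_, sat _ (h2 ▸ sub_mem f.2 (sum_mem fun i _ => W.smul_mem _ (hr i)))⟩,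
      by rw [← h2]; simp⟩
  choose c g hg using h1
  have h2 : ∀ n (v : W), X ^ n ∣ (v : F⟦X⟧) - ∑ i, (mk fun m => c (g^[m] v) i) • r i := by
    intro n
    induction n with
    | zero => simp
    | succ n ih =>
      intro v
      have h3 : ∀ i, (mk fun m => c (g^[m] v) i) • r i =
          (C (c v i) : ℂ⟦X⟧) • r i + X * (mk fun m => c (g^[m] (g v)) i) • r i := fun i => by
        rw [eq_C_add (mk fun m => c (g^[m] v) i), add_smul, mul_smul, smul_eq X, map_X]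
        congr 3
        ext m
        simp [sh]
      simp only [h3, Finset.sum_add_distrib, ← Finset.mul_sum]
      rw [hg v, add_sub_add_left_eq_sub, ← mul_sub, pow_succ']
      exact mul_dvd_mul_left _ (ih _)
  exact ⟨_, eq_of_dvd fun n => h2 n ⟨f, hf⟩⟩

end Crest.Agent.X262.Fam6
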