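import Crest.Agent.X262.Alg44.Defs
import Crest.Agent.X277.AN.G1Gaga
import Crest.Agent.X262.Bl41.Diag_Mg
import Crest.Agent.X262.RR.Main
import Crest.Agent.X262.Alg44.Gen
import Crest.Agent.X262.Pui27.Fld_Mg
import Crest.Agent.X262.KV.Qch
import Crest.Agent.X262.Lift8.Defs
import Crest.Agent.X262.KV.Mod
import Crest.Agent.X262.FG.Bert
import Crest.Agent.X262.FG.Up0
import Crest.Agent.X262.RR.All

-- ▼ part X262/Gen28/Main
section

/-!
# Row 262, G4 / ALG (helper28): generation of the module of sections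

* `sec_forms`  : the sections of `d • oP P` are forms of degree `d` for large `d`;
* `exists_form`: elements of a chart ring are forms divided by a power of the coordinate;
* `genSecStmt : Alg44.GenSecStmt`.
-/

set_option autoImplicit false

noncomputable section

namespace Crest.Agent.X262.Gen28

open Crest.Agent.X277 Crest.Agent.X277.Lef Crest.Agent.X277.AN Crest.Agent.X277.AN.G1
open Crest.Agent.X277.BD Crest.Agent.X277.BD.Br
open MvPolynomial

variable {F : Type} [Field F] [Algebra ℂ F] (P : PModel ℂ F)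

/-- **Serre**: sections of large degree are forms -/
theorem sec_forms : ∃ d0 : ℕ, ∀ d, d0 ≤ d → ∀ f ∈ (d • oP P).Sec,
    ∃ p : MvPolynomial (Fin (P.N + 1)) ℂ, p.IsHomogeneous d ∧ f = aeval P.y p := by
  obtain ⟨b⟩ := exists_basis P
  obtain ⟨Y⟩ := nonempty_AnP P b
  obtain ⟨d0, h⟩ := SP.sec_poly Y.Pr Y.PA
  refine ⟨d0, fun d hd f hf => ?_⟩
  have h1 : AnP.RegS (Y.yF ^ d) Set.univ f := fun α x hx _ => by
    rw [AnP.fr_pow, AnP.fr_yF]
    exact ((at_y (Y.sub α x hx)).nsmul d).div_mem hf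
  have h2 := AnP.isHS_sec h1
  rw [map_pow, ← AnP.lb_Pr] at h2
  obtain ⟨p, hp, h3⟩ := h d hd _ h2
  refine ⟨p, hp, AnP.sec_inj (φ := Y.yF ^ d) ?_⟩
  funext α x
  by_cases hx : x ∈ (Y.A.e α).source
  · rw [h3 α x hx, AnP.sec_form hp hx]
  · rw [AnP.sec_off _ _ hx, AnP.sec_off _ _ hx]

variable {P}


theorem hom_X_pow {σ : Type*} (i : σ) (k : ℕ) : (X i ^ k : MvPolynomial σ ℂ).IsHomogeneous k := by
  simpa using (isHomogeneous_X ℂ i).pow k

/-- an element of a chart ring is a form divided by a power of the coordinate -/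
theorem exists_form {i : Fin (P.N + 1)} {a : F} (ha : a ∈ P.A i) : ∃ k0 : ℕ, ∀ k, k0 ≤ k →
    ∃ p : MvPolynomial (Fin (P.N + 1)) ℂ, p.IsHomogeneous k ∧ a * P.y i ^ k = aeval P.y p := by
  have up : ∀ {a : F} (k0 : ℕ) (p : MvPolynomial (Fin (P.N + 1)) ℂ), p.IsHomogeneous k0 →
      a * P.y i ^ k0 = aeval P.y p → ∀ k, k0 ≤ k → ∃ p : MvPolynomial (Fin (P.N + 1)) ℂ,
        p.IsHomogeneous k ∧ a * P.y i ^ k = aeval P.y p := fun k0 p hp h k hk => by
    obtain ⟨e, rfl⟩ := Nat.exists_eq_add_of_le hk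
    exact ⟨p * X i ^ e, hp.mul (hom_X_pow i e), by
      rw [map_mul, ← h, map_pow, aeval_X, pow_add, mul_assoc]⟩
  induction ha using Algebra.adjoin_induction with
  | mem a ha =>
    obtain ⟨j, rfl⟩ := ha
    exact ⟨1, up 1 (X j) (isHomogeneous_X ℂ j) (by
      rw [pow_one, div_mul_cancel₀ _ (P.y_ne i), aeval_X])⟩
  | algebraMap c => exact ⟨0, up 0 (C c) (isHomogeneous_C _ c) (by simp)⟩
  | add a b _ _ ha hb =>
    obtain ⟨k, hk⟩ := ha
    obtain ⟨l, hl⟩ := hb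
    obtain ⟨p, hp, h1⟩ := hk (k + l) (by omega)
    obtain ⟨q, hq, h2⟩ := hl (k + l) (by omega)
    exact ⟨k + l, up _ (p + q) (hp.add hq) (by rw [add_mul, h1, h2, map_add])⟩
  | mul a b _ _ ha hb =>
    obtain ⟨k, hk⟩ := ha
    obtain ⟨l, hl⟩ := hb
    obtain ⟨p, hp, h1⟩ := hk k le_rfl
    obtain ⟨q, hq, h2⟩ := hl l le_rfl
    exact ⟨k + l, up _ (p * q) (hp.mul hq) (by rw [map_mul, ← h1, ← h2]; ring)⟩

section Mod

variable {ι : Type} [Fintype ι] (P) (s : ι → F)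

/-- combinations of the `s i` with forms of degree `M` as coefficients -/
def W (M : ℕ) : Submodule ℂ F where
  carrier := {f | ∃ p : ι → MvPolynomial (Fin (P.N + 1)) ℂ,
    (∀ i, (p i).IsHomogeneous M) ∧ f = ∑ i, s i * aeval P.y (p i)}
  zero_mem' := ⟨0, fun _ => isHomogeneous_zero _ _ _, by simp⟩
  add_mem' := by
    rintro _ _ ⟨p, hp, rfl⟩ ⟨q, hq, rfl⟩
    exact ⟨p + q, fun i => (hp i).add (hq i), by simp [mul_add, Finset.sum_add_distrib]⟩
  smul_mem' := by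
    rintro c _ ⟨p, hp, rfl⟩
    refine ⟨fun i => C c * p i, fun i => (hp i).C_mul c, ?_⟩
    rw [Algebra.smul_def, Finset.mul_sum]
    exact Finset.sum_congr rfl fun i _ => by rw [map_mul, aeval_C]; ring

/-- combinations of the `s j` with coefficients in a chart ring -/
def Nc (i : Fin (P.N + 1)) : Submodule ℂ F where
  carrier := {f | ∃ a : ι → F, (∀ j, a j ∈ P.A i) ∧ f = ∑ j, s j * a j}
  zero_mem' := ⟨0, fun _ => zero_mem _, by simp⟩
  add_mem' := by
    rintro _ _ ⟨p, hp, rfl⟩ ⟨q, hq, rfl⟩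
    exact ⟨p + q, fun i => add_mem (hp i) (hq i), by simp [mul_add, Finset.sum_add_distrib]⟩
  smul_mem' := by
    rintro c _ ⟨p, hp, rfl⟩
    exact ⟨fun i => c • p i, fun i => Subalgebra.smul_mem _ (hp i) c, by simp [Finset.smul_sum]⟩

variable {P s}

theorem mul_mem_W {M k : ℕ} {f : F} (hf : f ∈ W P s M) {r : MvPolynomial (Fin (P.N + 1)) ℂ}
    (hr : r.IsHomogeneous k) : aeval P.y r * f ∈ W P s (k + M) := by
  obtain ⟨p, hp, rfl⟩ := hf
  refine ⟨fun i => r * p i, fun i => hr.mul (hp i), ?_⟩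
  rw [Finset.mul_sum]
  exact Finset.sum_congr rfl fun i _ => by rw [map_mul]; ring

theorem mem_Nc (hs : ∃ i, s i ≠ 0) (ha : mxf ℂ s ∈ On P) {M : ℕ} {f : F}
    (hf : f ∈ (mxf ℂ s + M • oP P).Sec) (i : Fin (P.N + 1)) : f / P.y i ^ M ∈ Nc P s i := by
  classical
  refine mem_of_local (i := i) _ ?_ fun x hx => ?_
  · rintro c hc _ ⟨a, ha, rfl⟩
    exact ⟨fun j => c * a j, fun j => mul_mem hc (ha j), by
      rw [Finset.mul_sum]
      exact Finset.sum_congr rfl fun j _ => by ring⟩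
  · obtain ⟨g, hg⟩ := ha x
    obtain ⟨j, hj⟩ := hg.exists_mxf hs
    obtain ⟨a, ha, c, hc, h0, h1⟩ :=
      (G1.mem_lp_iff hx).1 ((hj.add ((at_y hx).nsmul M)).div_mem hf)
    refine ⟨c, hc, h0, Pi.single j a, fun l => ?_, ?_⟩
    · by_cases h : l = j
      · rwa [h, Pi.single_eq_same]
      · rw [Pi.single_eq_of_ne h]
        exact zero_mem _
    · rw [Finset.sum_eq_single j (fun l _ h => by rw [Pi.single_eq_of_ne h, mul_zero])
        (by simp), Pi.single_eq_same, ← h1]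
      have := hj.ne
      field_simp

theorem exists_y_pow (hs : ∃ i, s i ≠ 0) (ha : mxf ℂ s ∈ On P) {M : ℕ} {f : F}
    (hf : f ∈ (mxf ℂ s + M • oP P).Sec) (i : Fin (P.N + 1)) :
    ∃ k : ℕ, P.y i ^ k * f ∈ W P s (k + M) := by
  obtain ⟨a, h1, h2⟩ := mem_Nc hs ha hf i
  choose k hk using fun j => exists_form (h1 j)
  choose p hp h3 using fun j => hk j (Finset.univ.sup k + M)
    ((Finset.le_sup (Finset.mem_univ j)).trans (Nat.le_add_right _ _))
  refine ⟨Finset.univ.sup k, p, hp, ?_⟩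
  rw [div_eq_iff (pow_ne_zero _ (P.y_ne i))] at h2
  rw [h2, Finset.sum_mul, Finset.mul_sum]
  exact Finset.sum_congr rfl fun j _ => by rw [← h3]; ring

/-- every section times any form of large degree is a combination of the `s i` -/
theorem exists_mul (hs : ∃ i, s i ≠ 0) (ha : mxf ℂ s ∈ On P) {M : ℕ} {f : F}
    (hf : f ∈ (mxf ℂ s + M • oP P).Sec) : ∃ k0 : ℕ, ∀ k, k0 ≤ k →
      ∀ r : MvPolynomial (Fin (P.N + 1)) ℂ, r.IsHomogeneous k → aeval P.y r * f ∈ W P s (k + M) := by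
  classical
  choose k hk using exists_y_pow hs ha hf
  refine ⟨∑ i, k i, fun m hm r hr => ?_⟩
  rw [r.as_sum, map_sum, Finset.sum_mul]
  refine Submodule.sum_mem _ fun d hd => ?_
  have h1 : d.degree = m := by
    rw [Finsupp.degree_eq_weight_one]
    exact hr (mem_support_iff.1 hd)
  obtain ⟨i, hi⟩ : ∃ i, k i ≤ d i := by
    by_contra h
    push Not at h
    have h2 := Finset.sum_lt_sum_of_nonempty Finset.univ_nonempty fun i _ => h i
    rw [← Finsupp.degree_eq_sum, h1] at h2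
    omega
  obtain ⟨e, he⟩ : ∃ e, d = e + Finsupp.single i (k i) :=
    ⟨d - Finsupp.single i (k i), (tsub_add_cancel_of_le (Finsupp.single_le_iff.2 hi)).symm⟩
  have h3 : e.degree + k i = m := by rw [← h1, he, map_add, Finsupp.degree_single]
  have h4 := mul_mem_W (hk i) (isHomogeneous_monomial (coeff d r) (rfl : e.degree = _))
  rw [← add_assoc, h3] at h4
  convert h4 using 1
  conv_lhs => rw [he, monomial_add_single, ← he, map_mul, map_pow, aeval_X, mul_assoc]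

theorem gen (hs : ∃ i, s i ≠ 0) (ha : mxf ℂ s ∈ On P) : ∃ M0 : ℕ, ∀ M, M0 ≤ M →
    ∀ f ∈ (mxf ℂ s + M • oP P).Sec, f ∈ W P s M := by
  classical
  obtain ⟨d0, hd⟩ := sec_forms P
  obtain ⟨g, hg, e0, he⟩ := G1.exists_tw_mem P s
  set e := max d0 e0
  set G := g * P.y 0 ^ e
  have hG : G ≠ 0 := mul_ne_zero hg (pow_ne_zero _ (P.y_ne 0))
  have h1 : ∀ j, G * s j ∈ (e • oP P).Sec := fun j => mem_Sec_of fun x => by
    obtain ⟨i, hi⟩ := exists_pat x
    exact ⟨_, (at_y hi).nsmul e, A_le hi (he e (le_max_right _ _) j i)⟩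
  have h2 : ∀ (M : ℕ), ∀ f ∈ (mxf ℂ s + M • oP P).Sec, G * f ∈ ((e + M) • oP P).Sec := by
    intro M f hf V
    obtain ⟨j, hj⟩ := exists_val_mxf (k := ℂ) hs V
    have h3 := hf V
    have h4 := h1 j V
    rw [val_add, ← hj] at h3
    rw [map_mul] at h4
    rw [add_nsmul, val_add, map_mul]
    exact (mul_le_mul_right h3 _).trans (by rw [← mul_assoc]; exact mul_le_mul_left h4 _)
  let T : Set (MvPolynomial (Fin (P.N + 1)) ℂ) := {p | ∃ M : ℕ, p.IsHomogeneous (e + M) ∧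
    ∃ f ∈ (mxf ℂ s + M • oP P).Sec, aeval P.y p = G * f}
  obtain ⟨T0, hT0, hT⟩ := (Submodule.fg_span_iff_fg_span_finset_subset T).1
    (IsNoetherian.noetherian (Submodule.span (MvPolynomial (Fin (P.N + 1)) ℂ) T))
  have h5 : ∀ t : T0, ∃ M1 : ℕ, ∀ M, M1 ≤ M → ∀ r, ∃ f ∈ W P s M,
      aeval P.y (homogeneousComponent (e + M) (r * t.1)) = G * f := by
    rintro ⟨t, ht⟩
    obtain ⟨m, h6, f, hf, h7⟩ := hT0 ht
    obtain ⟨k0, hk⟩ := exists_mul hs ha hf
    refine ⟨k0 + m, fun M hM r => ?_⟩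
    obtain ⟨k, rfl⟩ : ∃ k, M = k + m := ⟨M - m, by omega⟩
    refine ⟨_, hk k (by omega) _ (homogeneousComponent_isHomogeneous k r), ?_⟩
    have h8 : homogeneousComponent (e + (k + m)) (r * t) = homogeneousComponent k r * t := by
      conv_lhs => rw [← sum_homogeneousComponent r, Finset.sum_mul, map_sum]
      rw [Finset.sum_eq_single k]
      · rw [homogeneousComponent_of_mem ((homogeneousComponent_isHomogeneous k r).mul h6),
          if_pos (by omega)]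
      · intro l _ hl
        rw [homogeneousComponent_of_mem ((homogeneousComponent_isHomogeneous l r).mul h6),
          if_neg (by omega)]
      · intro hk
        rw [homogeneousComponent_eq_zero k r (by simpa using hk), zero_mul, map_zero]
    rw [h8, map_mul, h7]
    ring
  choose M1 hM1 using h5
  refine ⟨Finset.univ.sup M1, fun M hM f hf => ?_⟩
  have h9 : ∀ p ∈ Submodule.span (MvPolynomial (Fin (P.N + 1)) ℂ)
      (T0 : Set (MvPolynomial (Fin (P.N + 1)) ℂ)), ∀ r : MvPolynomial (Fin (P.N + 1)) ℂ,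
      ∃ f ∈ W P s M, aeval P.y (homogeneousComponent (e + M) (r * p)) = G * f := by
    intro p hp
    induction hp using Submodule.span_induction with
    | mem t ht => exact hM1 ⟨t, ht⟩ M ((Finset.le_sup (Finset.mem_univ _)).trans hM)
    | zero => exact fun r => ⟨0, zero_mem _, by simp⟩
    | add p q _ _ hp hq =>
      intro r
      obtain ⟨f, hf, h1⟩ := hp r
      obtain ⟨f', hf', h2⟩ := hq r
      exact ⟨f + f', add_mem hf hf', by rw [mul_add, map_add, map_add, h1, h2, mul_add]⟩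
    | smul c p _ hp => exact fun r => by rw [smul_eq_mul, ← mul_assoc]; exact hp _
  obtain ⟨p, hp, h10⟩ := hd (e + M) ((le_max_left _ _).trans (Nat.le_add_right _ _)) _ (h2 M f hf)
  obtain ⟨f', hf', h11⟩ := h9 p (hT ▸ Submodule.subset_span ⟨M, hp, f, hf, h10.symm⟩) 1
  rw [one_mul, homogeneousComponent_of_mem hp, if_pos rfl, ← h10] at h11
  exact mul_left_cancel₀ hG h11 ▸ hf'

end Mod

/-- generation of the module of sections -/
theorem genSecStmt : Alg44.GenSecStmt := fun _ _ _ _ _ _ _ hs ha => gen hs ha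

end Crest.Agent.X262.Gen28
end
end

-- ▼ part X262/Sp78/K3
section

/-!
# Row 262, G4 / SP + K3 (helper78), part 4: the generic fibre is a K3 surface of Picard number one

* `k3Stmt : Alg44.K3Stmt`;
* `chi_gen` : `χ = 2` and `K ∼ 0` on the generic fibre;
* `k3Stmt2` : the same as `k3Stmt` with the irregularity hypothesis as an implication.
-/

set_option autoImplicit false

noncomputable section

namespace Crest.Agent.X262.Sp78

open Crest.Agent.X277 Crest.Agent.X277.Lef Crest.Agent.X277.AN.G1 Crest.Agent.X277.BD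
open Crest.Agent.X277.BD.Br (On oP kP)
open Crest.Agent.X262.Alg44
open Crest.Agent.X262.Top (K3 Reg1)
open Crest.Agent.X262.Surf (B2 Chi)

theorem k3Stmt : K3Stmt := Sp71.k3Stmt_of RR.rrStmt RR.serStmt fun _ _ _ _ _ _ _ _ _ _ G h hp =>
  ⟨sp G h Gen28.genSecStmt hp, sp0 G h Gen28.genSecStmt⟩

variable {F E : Type} [Field F] [Algebra ℂ F] [Algebra.EssFiniteType ℂ F] [Field E] [Algebra ℂ E]
  [Algebra.EssFiniteType ℂ E] {R : Red F E} {P : PModel ℂ F}

theorem chi_gen (G : Pre R P) (b : B2 F) (h : G.Sm) (b' : B2 E) (hc : Chi P b 2)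
    (hK : Lin (kP P b) 0) : Chi (G.gen h) b' 2 ∧
      bnum [oP (G.gen h), oP (G.gen h)] = bnum [oP P, oP P] ∧ Lin (kP (G.gen h) b') 0 := by
  obtain ⟨c, h1⟩ := RR.rrStmt E (G.gen h) b'
  obtain ⟨rfl, h2⟩ := Sp71.can_of RR.serStmt hc hK h1 (sp0 G h Gen28.genSecStmt)
  exact ⟨h1, h2⟩

theorem k3Stmt2 (G : Pre R P) (b : B2 F) (h : G.Sm) (b' : B2 E) (D : ℕ) (hp : G.Pic) (hr : G.Rig)
    (hc : Chi P b 2) (hK : Lin (kP P b) 0)
    (hi : Chi (G.gen h) b' 2 → Lin (kP (G.gen h) b') 0 → ∀ ω, Reg1 (G.gen h) ω → ω = 0)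
    (hD : ∀ M ∈ On P, ∀ k : ℤ, (∀ a ∈ On P, bnum [oP P - k • M, a] = 0) → D ≤ bnum [M, M]) :
    ∃ d : ℕ, D ≤ d ∧ Nonempty (K3 E d) :=
  k3Stmt F E R P G b h b' D hp hr hc hK
    (hi (chi_gen G b h b' hc hK).1 (chi_gen G b h b' hc hK).2.2) hD

end Crest.Agent.X262.Sp78
end
end

-- ▼ part X262/Alg44/Main
section

/-!
# Row 262, G4 / ALG (helper44), part 4: the glue

* `tw`, `tw2` : the fields of Puiseux series;
* `alg_of`    : a formal family of K3 surfaces and lines gives a cubic with `HXL`.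
-/

set_option autoImplicit false

noncomputable section

namespace Crest.Agent.X262.Alg44

open Crest.Agent.X277 Crest.Agent.X277.Lef Crest.Agent.X277.AN.G1 Crest.Agent.X277.BD
open Crest.Agent.X277.BD.Br (On oP kP)
open Crest.Agent.X262.Top (Lines SmCub HXL)
open Crest.Agent.X262.Surf (B2 Chi)
open Crest.Agent.X262.Fam99 (fld pre)
open Crest.Agent.X262.Pui27

/-- the field of Puiseux series -/
def tw (F : Type) [Field F] [Algebra ℂ F] : Fam99.Tw F (PE F) where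
  R := red F
  ie := ie
  inj _ := ie_injective
  exp _ _ he hk := ie_exp he hk
  th := th
  ie_map _ := ie_map
  mem _ := ie_mem
  r_ie _ := r_ie
  lev _ := lev_one
  levc _ := lev_one_o

variable {F L : Type} [Field F] [Algebra ℂ F] [Field L] [Algebra ℂ L]
  {P : PModel ℂ F} {G₀ : MvPolynomial (Fin 6) ℂ}

/-- the fields of Puiseux series over the surface and its square -/
def tw2 (Λ : Lines G₀ F L) : Deg38.Tw Λ (PE F) (PE L) where
  RF := red F
  RL := red L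
  iF := ie 1 one_ne_zero
  iL := ie 1 one_ne_zero
  t := th 1 one_ne_zero
  p := pm Λ.ι
  s := pm Λ.τ
  co := hs
  iF_O f := ⟨ie_mem _ f, r_ie _ f⟩
  iL_O f := ⟨ie_mem _ f, r_ie _ f⟩
  iL_map := ie_map _
  p_i := pm_ie _ _
  s_i := pm_ie _ _
  s_s x := by
    rw [pm_pm, show Λ.τ.comp Λ.τ = AlgHom.id ℂ L from AlgHom.ext Λ.inv, pm_id]
  p_O x hx := ⟨(pm_mem _).2 hx, r_pm _ x⟩
  s_O x hx := ⟨(pm_mem _).2 hx, r_pm _ x⟩
  co_p x := ⟨hs x, hs_pm _ x⟩
  co_s := hs_pm _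
  co_i := hs_ie _
  co_r x _ := red_r x

/-- **ALG** -/
theorem alg_of [Algebra.EssFiniteType ℂ F] {Λ : Lines G₀ F L} (hQ : KV.IrrQ) (b : B2 F) (T : Fam P)
    (hc : Chi P b 2) (hK : Lin (kP P b) 0) (hT : T.Rigid) {n : ℕ}
    (hn : ∀ M ∈ On P, ∀ k : ℤ, (∀ a ∈ On P, bnum [oP P - k • M, a] = 0) → (n : ℤ) ≤ bnum [M, M])
    (hG : SmCub G₀) (N : LFam T Λ) : ∃ G, SmCub G ∧ HXL n G := by
  have h := (pre (tw F) T Gen28.genSecStmt).sm b
  obtain ⟨b'⟩ := (pre (tw F) T Gen28.genSecStmt).basis b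
  have := (pre (tw F) T Gen28.genSecStmt).essFT h
  obtain ⟨d, h1, h2⟩ := Sp78.k3Stmt2 _ b h b' n (Fam99.pic Ufd9.ufdStmt b) (Fam99.rig hT) hc hK
    (KV.irr_of_chi hQ) hn
  obtain ⟨G, L', _, _, h3, h4⟩ := Deg38.deg_of (tw2 Λ) N (fld (tw F) T).val
    (pre (tw F) T Gen28.genSecStmt) h b' hG fun f hf => Fam99.hFS h hf
  exact ⟨G, h3, _, _, _, this, d, L', _, _, h1, h2, h4⟩

end Crest.Agent.X262.Alg44
end
end

-- ▼ part X262/KV/Van
section

/-!
# Row 262, G4 / VAN (helper8, helper68): `H¹(K + N) = 0` for `N` free and big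

* `van_kv`   : every cocycle with values in `K + N` is a coboundary;
* `vanPStmt` : the same for covers by Zariski open sets of closed points.
-/

set_option autoImplicit false

open WithZero Filter Topology Set
open scoped KaehlerDifferential

noncomputable section

namespace Crest.Agent.X262.KV

open Crest.Agent.X277 Crest.Agent.X277.Lef Crest.Agent.X277.AN.G1 Crest.Agent.X277.BD
open Crest.Agent.X277.BD.Br (At oP kP)
open Crest.Agent.X277.Cns (KV Ov)
open Crest.Agent.X277.Res.Log (Bd On)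
open Crest.Agent.X262.FG Crest.Agent.X262.Lift8

variable {F : Type} [Field F] [Algebra ℂ F] {P : PModel ℂ F} {n : ℕ}

theorem div_mon_mem {B : Bd P n} {x : Pts P} {w : F} (hw : w ∈ (lp x).O)
    (h : ∀ e, On (B.v e) x → B.v e w < 1) : w / B.mon x (fun _ => 1) ∈ (lp x).O := by
  classical
  have key : ∀ S : Finset B.ι, w / ∏ e ∈ S, B.τ e x ∈ (lp x).O := by
    intro S
    induction S using Finset.induction_on with
    | empty => simpa using hw
    | insert e S he ih =>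
      rw [Finset.prod_insert he]
      by_cases hx : On (B.v e) x
      · rw [mul_comm, ← div_div]
        refine Bd.div_mem hx ih ?_
        rw [map_div₀, map_prod, Finset.prod_eq_one fun e' he' =>
          Bd.v_τ_ne hx fun h1 => he (h1 ▸ he'), div_one]
        exact h e hx
      · rwa [B.off e x hx, one_mul]
  simpa [Bd.mon] using key Finset.univ

open Classical in
/-- one pole order is removed -/
theorem van_step (b : Module.Basis (Fin n) F Ω[F⁄ℂ]) {N : BD ℂ F} (hNP : N ∈ Br.On P)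
    (hN : Free N) (hB : Big N) {ι : Type*} {U : ι → Set (RZ ℂ F)} (hU : Cov P U) {r : ι → F}
    (hr : ∀ c c' V, V ∈ U c → V ∈ U c' → r c - r c' ∈ vS (kP P b + N) V) {C : Bd P n} {s : F}
    (h0 : s ≠ 0) (hT : oP P - pr ℂ s = dvs C fun _ => 1) {i : ℕ} {r₀ : F}
    (h : ∀ c V, V ∈ U c → s ^ (i + 1) * (r₀ - r c) ∈ vS (kP P b + N + (i + 1) • oP P) V) :
    ∃ r₁ : F, ∀ c V, V ∈ U c → s ^ i * (r₁ - r c) ∈ vS (kP P b + N + i • oP P) V := by
  choose c T h1 h2 using hU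
  have hx : ∀ x (V : RZ ℂ F), Ov x V.1 → V ∈ U (c x) := fun x V hV =>
    h2 x V fun y hy => hV y (h1 x y hy)
  have hs : s ∈ (oP P).Sec := Sec_mono (by
    rw [← sub_nonneg, hT]
    exact dvs_nonneg fun _ => zero_le_one) (mem_Sec_pr s)
  have hv : ∀ x (V : RZ ℂ F), Ov x V.1 → V.v s = (oP P).val V * V.v (C.mon x fun _ => 1) := by
    intro x V hV
    have h3 := at_dvs C (fun _ => 1) x V hV
    rw [← hT, val_sub, val_pr h0, map_inv₀, inv_eq_iff_eq_inv, inv_div,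
      eq_div_iff (val_ne _ V)] at h3
    rw [← h3, mul_comm]
  choose g hg using (add_mem (add_mem (Br.kP_mem b) hNP) (nsmul_mem Br.oP_mem (i + 1)) :
    kP P b + N + (i + 1) • oP P ∈ Br.On P)
  have key : ∀ (j : ℕ) c c' V, V ∈ U c → V ∈ U c' →
      s ^ j * (r c - r c') ∈ vS (kP P b + N + j • oP P) V := fun j c c' V hc hc' => by
    rw [mem_vS, map_mul, val_add, mul_comm]
    exact mul_le_mul' (hr _ _ V hc hc') (pow_mem_Sec hs _ V)
  have hu : KV.Loc C Finset.univ g fun _ x => s ^ (i + 1) * (r₀ - r (c x)) := by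
    refine ⟨fun e _ x _ => (hg x).div_mem_iff.2 fun V hV => h _ V (hx x V hV),
      fun e _ x x' he he' => ?_, fun _ _ _ _ _ _ _ => rfl⟩
    let V := rz (C.v e) (triv C e)
    have h3 : Ov x V.1 := fun f hf => he f hf
    have h4 := key i _ _ V (hx x' V fun f hf => he' f hf) (hx x V h3)
    have h5 : V.v (C.mon x fun _ => 1) < 1 := by
      rw [← map_one V.v, v_rz_lt_iff, map_one, Bd.mon, map_prod,
        Finset.prod_eq_single e (fun e' _ h => by rw [zpow_one, Bd.v_τ_ne he h.symm]) (by simp),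
        zpow_one]
      exact Bd.v_τ_lt he
    rw [← map_one (C.v e), ← v_rz_lt_iff _ (triv C e), map_one, map_div₀,
      div_lt_one₀ (RZ.pos (hg x).ne), hg x V h3,
      show s ^ (i + 1) * (r₀ - r (c x)) - s ^ (i + 1) * (r₀ - r (c x')) =
        s ^ i * (r (c x') - r (c x)) * s by ring, map_mul, succ_nsmul, ← add_assoc, val_add,
      hv x V h3]
    exact mul_lt_mul_of_le_of_lt_of_nonneg_of_pos h4
      (mul_lt_of_lt_one_right (val_pos _ V) h5) zero_le (val_pos _ V)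
  obtain ⟨f, hf, h3⟩ := KV.kv_mod b (L := N + i • oP P + pr ℂ s) hg
    ((hN.add (Br.free_oP.nsmul i)).add (free_pr s))
    ((hB.add_eff (Br.free_oP.nsmul i).eff).add_eff (free_pr s).eff) (q := 1) (c := fun _ => 0)
    (fun _ => zero_lt_one) zero_lt_one (by
      have h3 : dvs C (fun _ => ((0 : ℕ) : ℤ)) = 0 := dvs_zero C
      simp only [Finset.mem_univ, if_true, one_smul, h3, ← hT, succ_nsmul]
      abel) hu
  refine ⟨r₀ - f / s ^ (i + 1), fun c' V hV => ?_⟩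
  obtain ⟨x, hx'⟩ := Br.exists_ov' P V
  have h4 := hx' _ (div_mon_mem (B := C) (w := (f - s ^ (i + 1) * (r₀ - r (c x))) / g x)
    (by
      rw [sub_div]
      exact sub_mem ((hg x).div_mem hf) ((hg x).div_mem_iff.2 fun V hV => h _ V (hx x V hV)))
    fun e he => h3 e (Finset.mem_univ e) x he)
  have h5 : s ^ i * (r₀ - f / s ^ (i + 1) - r (c x)) ∈ vS (kP P b + N + i • oP P) V := by
    rw [div_div, ← RZ.le_iff (mul_ne_zero (hg x).ne (C.mon_ne x _)),
      show f - s ^ (i + 1) * (r₀ - r (c x)) =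
        -(s ^ i * (r₀ - f / s ^ (i + 1) - r (c x)) * s) by field_simp; ring,
      Valuation.map_neg, map_mul, map_mul _ (g x), hg x V hx', succ_nsmul, ← add_assoc, val_add,
      hv x V hx', mul_assoc, mul_le_mul_iff_left₀
        (mul_pos (val_pos _ V) (RZ.pos (C.mon_ne x _)))] at h4
    exact h4
  simpa [mul_sub] using add_mem h5 (key i _ _ V (hx x V hx') hV)

/-- **vanishing** -/
theorem van_kv (b : Module.Basis (Fin n) F Ω[F⁄ℂ]) {N : BD ℂ F} (hNP : N ∈ Br.On P)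
    (hN : Free N) (hB : Big N) {ι : Type*} {U : ι → Set (RZ ℂ F)} (hU : Cov P U) :
    Van U (vS (kP P b + N)) := by
  intro r hr
  obtain ⟨u, C, j, c, -, h0, -, hc, hT⟩ := Bert.bertStmt F n P (bd0 P b) (oP P) Br.oP_mem _ P.y
    Br.y_mem_Sec (fun x => (exists_pat x).imp fun _ => Br.at_y) 1 one_ne_zero
  have h1 : c = fun _ => 1 := funext fun e => hc e fun ⟨e', _⟩ => e'.elim
  rw [h1] at hT
  obtain ⟨e, r₀, h⟩ := exists_kill hU hr
    (sum_mem fun i _ => Submodule.smul_mem _ (u i) (Br.y_mem_Sec i)) h0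
  induction e generalizing r₀ with
  | zero => exact ⟨r₀, fun c V hV => by simpa using h c V hV⟩
  | succ i ih =>
    obtain ⟨r₁, h2⟩ := van_step b hNP hN hB hU hr h0 hT h
    exact ih r₁ h2

theorem exists_ov_ne {i : Fin (P.N + 1)} {V : RZ ℂ F} (hA : ∀ a ∈ P.A i, a ∈ V.1) {c : F}
    (hc : c ∈ P.A i) (h1 : V.v c = 1) : ∃ x ∈ pat P i, Ov x V.1 ∧ ev c x ≠ 0 := by
  let φ : P.A i →+* V.1 := (P.A i).val.toRingHom.codRestrict V.1 fun a => hA a a.2
  have : IsJacobsonRing (P.A i) := isJacobsonRing_of_finiteType (A := ℂ)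
  have h2 : (⟨c, hc⟩ : P.A i) ∉ ((IsLocalRing.maximalIdeal V.1).comap φ).jacobson := by
    rw [isJacobsonRing_iff_prime_eq.1 this _ inferInstance]
    exact fun h => h ((V.1.valuation_eq_one_iff (φ ⟨c, hc⟩)).2 h1)
  rw [Ideal.jacobson, Ideal.mem_sInf] at h2
  push Not at h2
  obtain ⟨q, ⟨hq1, hq⟩, hq2⟩ := h2
  obtain ⟨x, hx, h0⟩ := exists_zero (I := q) hq.ne_top
  refine ⟨x, hx, fun f hf => ?_, fun h => ?_⟩
  · obtain ⟨a, ha, c, hc, h3, h4⟩ := (mem_lp_iff hx).1 hf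
    have h5 : V.v c = 1 := by
      refine (V.1.valuation_eq_one_iff (φ ⟨c, hc⟩)).1 ?_
      by_contra h6
      exact h3 (h0 ⟨c, hc⟩ (hq1 h6))
    rw [← RZ.le_one_iff, ← mul_one (V.v f), ← h5, ← map_mul, h4, h5]
    exact RZ.le_one_iff.2 (hA a ha)
  · obtain ⟨u, m, hm, h3⟩ := hq.exists_inv hq2
    have h4 : ev ((u * ⟨c, hc⟩ + m : P.A i) : F) x = 1 := by
      rw [h3]
      exact LP.v_one _
    have h5 := h0 m hm
    unfold ev at h h4 h5
    rw [Subalgebra.coe_add, Subalgebra.coe_mul,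
      LP.v_add _ (mul_mem (A_le hx u.2) (A_le hx hc)) (A_le hx m.2),
      LP.v_mul _ (A_le hx u.2) (A_le hx hc), h, h5, mul_zero, add_zero] at h4
    exact zero_ne_one h4

theorem v_one_of_ev {x : Pts P} {V : RZ ℂ F} (hx : Ov x V.1) {c : F} (h : ev c x ≠ 0) :
    V.v c = 1 := by
  simpa using (Br.at_zero x).mul_unit h V hx

/-- denominators in a fixed chart -/
theorem exists_den_ov {i : Fin (P.N + 1)} {x x' : Pts P} (hi : x ∈ pat P i) {V : RZ ℂ F}
    (hx : Ov x V.1) (hx' : Ov x' V.1) {f : F} (hf : f ∈ (lp x').O) :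
    ∃ c ∈ P.A i, V.v c = 1 ∧ c * f ∈ P.A i := by
  obtain ⟨j, hj⟩ := exists_pat x'
  obtain ⟨a, ha, c, hc, h0, h⟩ := (mem_lp_iff hj).1 hf
  obtain ⟨e, he⟩ := P.exists_pow_mul_mem i j ha
  obtain ⟨e', he'⟩ := P.exists_pow_mul_mem i j hc
  have h1 : V.v (P.y j / P.y i) = 1 := by
    refine le_antisymm (RZ.le_one_iff.2 (hx _ (y_mem hi j))) ?_
    rw [← inv_div, map_inv₀, one_le_inv₀ (RZ.pos (div_ne_zero (P.y_ne i) (P.y_ne j)))]
    exact RZ.le_one_iff.2 (hx' _ (y_mem hj i))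
  refine ⟨_, mul_mem (pow_mem (div_mem_chart P.y i j) e) he', ?_, ?_⟩
  · rw [map_mul, map_mul, map_pow, map_pow, h1, v_one_of_ev hx' h0]
    simp
  · convert mul_mem (pow_mem (div_mem_chart P.y i j) e') he using 1
    rw [← h]
    ring

/-- two points under a valuation ring -/
theorem exists_ov_mem {x : Pts P} {V : RZ ℂ F} (hx : Ov x V.1) {T : Finset F}
    (hT : ∀ f ∈ T, ∃ x' : Pts P, Ov x' V.1 ∧ f ∈ (lp x').O) :
    ∃ y : Pts P, Ov y V.1 ∧ ∀ f ∈ T, f ∈ (lp y).O := by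
  classical
  obtain ⟨i, hi⟩ := exists_pat x
  choose! c h1 h2 h3 using fun f (hf : f ∈ T) =>
    (hT f hf).elim fun x' h => exists_den_ov hi hx h.1 h.2
  obtain ⟨y, hy, h4, h5⟩ := exists_ov_ne (fun a ha => hx a (A_le hi ha)) (prod_mem h1)
    (by rw [map_prod]; exact Finset.prod_eq_one h2)
  refine ⟨y, h4, fun f hf => (mem_lp_iff hy).2 ⟨_, h3 f hf, _, h1 f hf, ?_, mul_comm _ _⟩⟩
  unfold ev at h5
  rw [LP.v_prod T fun f hf => A_le hy (h1 f hf)] at h5
  exact Finset.prod_ne_zero_iff.1 h5 f hf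

/-- **vanishing** for covers by sets of closed points -/
theorem vanPStmt : VanPStmt := by
  classical
  intro F _ _ n P b N hNP hN hB ι U hU hc r hr
  obtain ⟨s, hs⟩ := van_kv b hNP hN hB (U := fun c => {V | ∃ x ∈ U c, Ov x V.1}) (fun x => by
    obtain ⟨c, h1⟩ := hc x
    obtain ⟨T, h2, h3⟩ := hU c x h1
    obtain ⟨i, hi⟩ := exists_pat x
    choose! a ha d hd h4 h5 using fun f (hf : f ∈ T) => (mem_lp_iff hi).1 (h2 f hf)
    have h6 : ev (∏ f ∈ T, d f) x ≠ 0 := by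
      unfold ev
      rw [LP.v_prod T fun f hf => A_le hi (hd f hf)]
      exact Finset.prod_ne_zero_iff.2 h4
    refine ⟨c, insert (∏ f ∈ T, d f)⁻¹ (Finset.univ.image fun j => P.y j / P.y i), ?_,
      fun V hV => ?_⟩
    · simpa using ⟨(lp x).inv_mem h6, y_mem hi⟩
    have h7 : ∀ a ∈ P.A i, a ∈ V.1 := V.2.adjoin_le (by
      rintro _ ⟨j, rfl⟩
      exact hV _ (by simp))
    obtain ⟨y, hy, h8, h9⟩ := exists_ov_ne h7 (prod_mem hd) (by
      refine le_antisymm (RZ.le_one_iff.2 (h7 _ (prod_mem hd))) ?_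
      rw [← inv_le_one₀ (RZ.pos (LP.ne_zero_of_ne h6)), ← map_inv₀]
      exact RZ.le_one_iff.2 (hV _ (by simp)))
    refine ⟨y, h3 y fun f hf => (mem_lp_iff hy).2 ⟨_, ha f hf, _, hd f hf, ?_, h5 f hf⟩, h8⟩
    unfold ev at h9
    rw [LP.v_prod T fun f hf => A_le hy (hd f hf)] at h9
    exact Finset.prod_ne_zero_iff.1 h9 f hf) r (by
    rintro c c' V ⟨x, h1, h2⟩ ⟨x', h3, h4⟩
    obtain ⟨T, h5, h6⟩ := hU c x h1
    obtain ⟨T', h7, h8⟩ := hU c' x' h3
    obtain ⟨y, h9, h10⟩ := exists_ov_mem h2 (T := T ∪ T') fun f hf =>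
      (Finset.mem_union.1 hf).elim (fun h => ⟨x, h2, h5 f h⟩) fun h => ⟨x', h4, h7 f h⟩
    exact hr c c' y (h6 y fun f hf => h10 f (Finset.mem_union_left _ hf))
      (h8 y fun f hf => h10 f (Finset.mem_union_right _ hf)) V h9)
  exact ⟨s, fun c x hx V hV => hs c V ⟨x, hx, hV⟩⟩

end Crest.Agent.X262.KV
end
end

-- ▼ part X262/Fam6/Main

/-!
# Row 262, G4 / FAM (helper6), part 4: the formal family of the embedded surface and of the lines

* `ext_of`     : the sections of `j M` extend (`M` free, `M² > 0`);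
* `exists_all` : the output of FAM.
-/

set_option autoImplicit false

open PowerSeries

noncomputable section

namespace Crest.Agent.X262.Fam6

open Crest.Agent.X277 Crest.Agent.X277.Lef Crest.Agent.X277.AN.G1 Crest.Agent.X277.BD
open Crest.Agent.X277.BD.Br
open Crest.Agent.X262.Mv99 Crest.Agent.X262.Alg44
open Crest.Agent.X262.Top (Hyp Lines)
open Crest.Agent.X262.Rig38 (T3 Sy ten plk pv qv OnL)
open Crest.Agent.X262.St91 (dgl)
open Crest.Agent.R274.Prod1_134 (IsPF)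

variable {F L : Type} [Field F] [Algebra ℂ F] [Field L] [Algebra ℂ L]

theorem van_lin {P : PModel ℂ F} {ι : Type} {U : ι → Set (Pts P)} {a a' : BD ℂ F} (h : Lin a a')
    (hv : Lift8.Van U (nS a)) : Lift8.Van U (nS a') := by
  obtain ⟨g, hg, rfl⟩ := h
  have h1 : ∀ (x : Pts P) z, z * g ∈ nS (a' + pr ℂ g) x ↔ z ∈ nS a' x := fun x z =>
    forall₂_congr fun V _ => by
      rw [map_mul, val_add, val_pr hg, mul_le_mul_iff_left₀ (RZ.pos hg)]
  intro r hr
  obtain ⟨s, hs⟩ := hv (fun c => r c * g) fun c c' x hx hx' =>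
    sub_mul (r c) _ g ▸ (h1 x _).2 (hr c c' x hx hx')
  exact ⟨s / g, fun c x hx => (h1 x _).1 (by
    rw [sub_mul, div_mul_cancel₀ _ hg]; exact hs c x hx)⟩

theorem zo_pat {P : PModel ℂ F} (i : Fin (P.N + 1)) : Lift8.ZO (pat P i) := by
  classical
  refine fun x hx => ⟨Finset.univ.image fun j => P.y j / P.y i, fun f hf => ?_, fun x' h =>
    mem_pat_of_mem fun j => h _ (Finset.mem_image_of_mem _ (Finset.mem_univ j))⟩
  obtain ⟨j, -, rfl⟩ := Finset.mem_image.1 hf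
  exact A_le hx (div_mem_chart P.y _ j)

variable [Algebra.EssFiniteType ℂ F] {Γ : MvPolynomial (Fin 4) ℂ} {S : Hyp 3 Γ F} {M : BD ℂ F}
  {D : Dfm S M} {m : ℕ} {G : MvPolynomial (Fin 6) ℂ}

/-- sections extend -/
theorem ext_of (hΓ : Qt Γ) (b : Surf.B2 F) (hM : M ∈ On S.P) (hf : Free M) (hp : 0 < bnum [M, M])
    {j : ℕ} (hj : 0 < j) : Ext D j := fun s hs => by
  have h1 : Big M := hf.nef.big_iff.2 (by rwa [Hor83.dim_two b])
  have h2 := van_lin (a' := j • M) (by simpa using (KV.lin_kP_quartic hΓ b).add Lin.rfl)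
    (KV.vanPStmt F 2 S.P b _ (nsmul_mem hM j) (hf.nsmul j) (h1.nsmul hj) _ (U S)
      (fun _ => zo_pat _) (exists_U hΓ))
  obtain ⟨f, h3, h4⟩ := Lift8.lift_abs (fun a => Lift8.uni_act ((D.Φ a).pow j))
    (fun a c x ha hc => (same_nsmul hM (D.same ha hc) j).2) h2 (a := s) fun _ _ _ V _ => hs V
  exact ⟨f, fun a x hx => (h4 a x hx).imp fun c h => ⟨h.1, h.2.symm⟩, h3⟩

/-- **FAM** -/
theorem exists_all (hN : Lift8.NuStmt) (hΓ : Qt Γ) (b : Surf.B2 F) (Λ : Lines G F L)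
    (pf : IsPF Λ.ι (Λ.τ.comp Λ.ι)) (hM : M ∈ On S.P) (pos : 0 < bnum [M, M]) (hf : Free M)
    (amp : ∃ q : ℕ, 0 < q ∧ Free (q • M - oP S.P)) {u : L} (hu : u ≠ 0)
    (par : Λ.τ u = (-1) ^ m * u)
    (hp : mxf ℂ Λ.plk = pb Λ.ι M + pb (Λ.τ.comp Λ.ι) M - m • dgl Λ.ι (Λ.τ.comp Λ.ι) S.y + pr ℂ u)
    {c : T3 ℂ⟦X⟧} (sy : Sy c) (c0 : ∀ i j k, constantCoeff (c i j k) = ten G i j k)
    {a : Fin 8 → L⟦X⟧} (a0 : ∀ i, constantCoeff (a i) = Λ.a i) (on : OnL c (pv a) (qv a))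
    {w : L⟦X⟧} (w0 : constantCoeff w = 1)
    (sym : ∀ i j, map (Λ.τ : L →+* L) (w * plk (pv a) (qv a) i j) = w * plk (pv a) (qv a) i j)
    (kn : ∀ i j, C u⁻¹ * (w * plk (pv a) (qv a) i j) ∈ Submodule.span ℂ⟦X⟧
      {z | ∃ s ∈ (GS D 1 : Set F⟦X⟧), ∃ s' ∈ (GS D 1 : Set F⟦X⟧),
        z = map (Λ.ι : F →+* L) s * map (Λ.τ.comp Λ.ι : F →+* L) s'})
    (dg : ∀ i j n (V : RZ ℂ L), (∀ f, Λ.ι f ∈ V.1) → (∀ f, (Λ.τ.comp Λ.ι) f ∈ V.1) →
      V.v (u⁻¹ * coeff n (w * plk (pv a) (qv a) i j)) ≤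
        (-(m • dgl Λ.ι (Λ.τ.comp Λ.ι) S.y)).val V)
    (hk : ∀ N ∈ On S.P, Lifts S D.η N → ∀ N' ∈ On S.P,
      bnum [M, M] * bnum [N, N'] = bnum [N, M] * bnum [M, N']) {n : ℕ}
    (hl : ∀ A ∈ On S.P, (∀ N ∈ On S.P, bnum [M, M] * bnum [A, N] = bnum [A, M] * bnum [M, N]) →
      bnum [A, M] ≠ 0 → (n : ℤ) ≤ bnum [A, A]) :
    ∃ (P : PModel ℂ F) (T : Fam P), Surf.Chi P b 2 ∧ Lin (kP P b) 0 ∧ Same S.P P ∧ T.Rigid ∧
      (∀ A ∈ On P, ∀ k : ℤ, (∀ a ∈ On P, bnum [oP P - k • A, a] = 0) → (n : ℤ) ≤ bnum [A, A]) ∧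
      Nonempty (LFam T Λ) := by
  obtain ⟨q, hq, h1⟩ := amp
  obtain ⟨Q, g, hg, h0, hQ, hS⟩ := exists_rem (sub_mem (nsmul_mem hM q) oP_mem) h1
  rw [sub_add_cancel] at hQ
  obtain ⟨T, x₀, h2, h3, h4⟩ := exists_fam hΓ hg h0 hQ hS (ext_of (D := D) hΓ b hM hf pos hq)
  exact ⟨Q, T, RR.chiBirStmt F _ _ _ _ _ (KV.chi_quartic (S := S) hΓ b),
    hS.kP_eq b ▸ KV.lin_kP_quartic hΓ b, hS, rigid hΓ (lin_of hg hQ) hS h4 hk,
    big (lin_of hg hQ) hq (hS.on_le hM) pos (hS.on_eq ▸ hl),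
    exists_lfam hN hΓ b Λ pf hM hf (ext_of hΓ b hM hf pos one_pos) hq hg hQ h2 h3 hu par hp sy c0 a0
      on w0 sym kn dg⟩

end Crest.Agent.X262.Fam6
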